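import Vale.Agent.P315Z.Final
import Vale.Agent.P315Z.Lower

/-! P315: for every fixed `ε > 0`, a `(1 + ε)`-approximation of the edit distance in time
`n ^ (1 + o(1))`, and the linear lower bound. -/

set_option autoImplicit false

namespace Vale.Agent.Results.P315.AlmostLinear

open Vale.Agent.P315

/-- Upper bound: for every `ε > 0` there is one randomised word RAM program whose running time is
`O(n ^ (1 + δ))` for every `δ > 0`, on all inputs of length at most `n` and all tapes of random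
words, and whose output `D` satisfies `ED x y ≤ D ≤ (1 + ε) ED x y` with probability at least
`2/3`. Lower bound: a program that gives an `α`-approximation within `T` steps with probability at
least `2/3` on all binary strings of length `n` has `n ≤ 3 T`. -/
theorem result :
    (∀ ε : ℝ, 0 < ε → ∃ (k : ℕ) (P : Prog), ∀ δ : ℝ, 0 < δ → ∃ C : ℝ,
      ∀ (x y : List ℕ) (n b : ℕ), n = max x.length y.length → (n + 2) ^ k ≤ 2 ^ b →
        (∀ a ∈ x ++ y, a < 2 ^ b) →
        (∀ ρ : ℕ → ℕ, (∀ i, ρ i < 2 ^ b) → ∃ (t : ℕ) (s : State),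
          Exec (2 ^ b) ρ P (State.init x y) t s ∧ (t : ℝ) ≤ C * ((n : ℝ) + 1) ^ (1 + δ)) ∧
        ∀ T : ℕ, C * ((n : ℝ) + 1) ^ (1 + δ) ≤ T →
          2 * Nat.card (Fin T → Fin (2 ^ b)) ≤
            3 * Nat.card {ρ : Fin T → Fin (2 ^ b) // ∃ (t : ℕ) (s : State),
              Exec (2 ^ b) (tape ρ) P (State.init x y) t s ∧
                (ED x y ≤ s.reg 2 ∧ ((s.reg 2 : ℕ) : ℝ) ≤ (1 + ε) * ED x y)}) ∧
    (∀ (α : ℝ) (P : Prog) (n b T : ℕ),
      (∀ x y : List ℕ, x.length = n → y.length = n → (∀ a ∈ x ++ y, a < 2) →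
        2 * Nat.card (Fin T → Fin (2 ^ b)) ≤
          3 * Nat.card {ρ : Fin T → Fin (2 ^ b) // ∃ (t : ℕ) (s : State),
            Exec (2 ^ b) (tape ρ) P (State.init x y) t s ∧ t ≤ T ∧
              (ED x y ≤ s.reg 2 ∧ ((s.reg 2 : ℕ) : ℝ) ≤ α * ED x y)}) → n ≤ 3 * T) := by
  refine ⟨fun ε hε => ?_, Vale.Agent.P315Z.Lower.lower⟩
  obtain ⟨k, P, t, hP, ht⟩ := Vale.Agent.P315Z.almost_linear hε
  refine ⟨k, P, fun δ hδ => ?_⟩
  obtain ⟨C, hC⟩ := ht δ hδ
  refine ⟨C, fun x y n b hn hb hs => ?_⟩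
  obtain ⟨h1, h2⟩ := hP x y n b hn hb hs
  refine ⟨fun ρ hρ => ?_, fun T hT => h2 T ((hC n).trans hT)⟩
  obtain ⟨m, s, he, hm⟩ := h1 ρ hρ
  exact ⟨m, s, he, hm.trans (hC n)⟩

end Vale.Agent.Results.P315.AlmostLinear
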